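import Vale.Agent.P157F.Up.Model
import Vale.Agent.P157.Low.CubePairs
import Vale.Agent.P166F.Up.Dev.Root

/-!
P157: deviation of a finite log-sum over a Poisson number of patterns and two Gaussian fields.
-/

namespace Vale.Agent.P157F.Up

open MeasureTheory ProbabilityTheory Filter
open scoped RealInnerProductSpace
open Vale.Agent.P157 (Pot Wt L logI logZ variance_logZ L_lipschitz L_eq_integral abs_logZ_sub
  measurable_logZ)
open Vale.Agent.P157.Low (Sp patLaw poiLaw map_first_patterns integrable_poiLaw_pow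
  integrable_poisson_of_le poiLaw_id poiLaw_variance abs_le_amgm)
open Vale.Agent.P166F (lsum)
open Vale.Agent.P166F.Dev (gauss_lse_mad mad_mean mad_prod abs_lsum_le continuous_lsum)

variable {f : ℝ → ℝ} {B : ℝ} {N : ℕ} {lam : ℝ}

/-- The sum over the first patterns at a vector. -/
noncomputable def patExp (f : ℝ → ℝ) (ω : ℕ × (ℕ → Sp N)) (u : Sp N) : ℝ :=
  ∑ b ∈ Finset.range ω.1, f ⟪ω.2 b, u⟫

lemma measurable_patExp (hf : Pot f B) (u : Sp N) :
    Measurable fun ω : ℕ × (ℕ → Sp N) => patExp f ω u :=
  measurable_from_prod_countable_right fun M => Finset.measurable_fun_sum (Finset.range M) fun b _ =>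
    hf.meas.comp (Measurable.inner (measurable_pi_apply b) (measurable_const (a := u)))

lemma abs_patExp_le (hf : Pot f B) (ω : ℕ × (ℕ → Sp N)) (u : Sp N) :
    |patExp f ω u| ≤ (ω.1 : ℝ) * B :=
  (Finset.abs_sum_le_sum_abs _ _).trans ((Finset.sum_le_sum fun b _ => hf.bound _).trans_eq (by simp))

variable {X : Type} [Fintype X] [Nonempty X]

/-- Fluctuation in the patterns. -/
lemma poi_lse_mad (hf : Pot f B) (hl : 0 ≤ lam) (v : X → Sp N) (F : X → ℝ) :
    Integrable (fun ω => lsum fun x => patExp f ω (v x) + F x) ((poiLaw lam).prod (patLaw N)) ∧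
      ∫ ω, |lsum (fun x => patExp f ω (v x) + F x) -
          ∫ ω', lsum (fun x => patExp f ω' (v x) + F x) ∂(poiLaw lam).prod (patLaw N)|
        ∂(poiLaw lam).prod (patLaw N) ≤ 6 * (B + 1) * (Real.sqrt lam + 1) := by
  let _ : MeasurableSpace X := ⊤
  set μ := (PMF.uniformOfFintype X).toMeasure with hμ
  have hv : Measurable v := measurable_of_finite _
  set w : X → ℝ := fun x => Real.exp (F x)
  have hw : Wt w := Wt.exp (measurable_of_finite F) (β := ∑ a, |F a|) fun a =>
    Finset.single_le_sum (fun b _ => abs_nonneg (F b)) (Finset.mem_univ a)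
  set π := patLaw N
  set H : ℕ × (ℕ → Sp N) → ℝ := fun ω => lsum fun x => patExp f ω (v x) + F x
  set Lm : ℕ → ℝ := fun M => L μ f v M w + Real.log (Fintype.card X) with hLm
  have hHz : ∀ (M : ℕ) g,
      H (M, g) = logZ μ f v w (fun a : Fin M => g a) + Real.log (Fintype.card X) := fun M g => by
    have hc : (0 : ℝ) < Fintype.card X := by exact_mod_cast Fintype.card_pos
    simp only [H, w, lsum, patExp, logZ, hμ, PMF.integral_eq_sum, PMF.uniformOfFintype_apply,
      smul_eq_mul, ← Finset.mul_sum, ← Real.exp_add, ENNReal.toReal_inv, ENNReal.toReal_natCast]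
    rw [Real.log_mul (inv_ne_zero hc.ne')
      (Finset.sum_pos (fun _ _ => Real.exp_pos _) Finset.univ_nonempty).ne', Real.log_inv]
    simp only [add_comm (F _), fun x => Fin.sum_univ_eq_sum_range (fun b => f ⟪g b, v x⟫) M]
    ring
  have hB := hf.nonneg
  have hfirst : ∀ M : ℕ, MeasurePreserving (fun (g : ℕ → Sp N) (a : Fin M) => g a) π
      (Measure.pi fun _ : Fin M => stdGaussian (Sp N)) := fun M =>
    ⟨measurable_pi_lambda _ fun a => measurable_pi_apply _, map_first_patterns M⟩
  have hHm : Measurable H := continuous_lsum.measurable.comp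
    (measurable_pi_lambda _ fun x => (measurable_patExp hf (v x)).add_const _)
  set κ := |logI μ w| + |Real.log (Fintype.card X)|
  have hHb : ∀ q : ℕ × (ℕ → Sp N), |H q| ≤ κ + q.1 * B := fun q => by
    rw [show q = (q.1, q.2) from rfl, hHz]
    have h := abs_logZ_sub (μ := μ) hf hv hw (fun a : Fin q.1 => q.2 a)
    have := abs_sub_abs_le_abs_sub (logZ μ f v w fun a : Fin q.1 => q.2 a) (logI μ w)
    have := abs_add_le (logZ μ f v w fun a : Fin q.1 => q.2 a) (Real.log (Fintype.card X))
    linarith
  have hc : Integrable (fun M : ℕ => κ + (M : ℝ) * B) (poiLaw lam) := by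
    refine (integrable_const _).add (Integrable.mul_const ?_ B)
    simpa using integrable_poiLaw_pow lam 1
  have hHi : Integrable H ((poiLaw lam).prod π) :=
    (hc.comp_fst π).mono' hHm.aestronglyMeasurable
      (Eventually.of_forall fun q => (Real.norm_eq_abs _).trans_le (hHb q))
  refine ⟨hHi, ?_⟩
  have hsec : ∀ M, Integrable (fun g => H (M, g)) π := fun M =>
    Integrable.of_bound (hHm.comp measurable_prodMk_left).aestronglyMeasurable (κ + M * B)
      (Eventually.of_forall fun g => (Real.norm_eq_abs _).trans_le (hHb (M, g)))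
  have hmean : ∀ M, ∫ g, H (M, g) ∂π = Lm M := fun M => by
    have hZ : Integrable (fun g : ℕ → Sp N => logZ μ f v w fun a : Fin M => g a) π :=
      ((hsec M).sub (integrable_const (Real.log (Fintype.card X)))).congr
        (Eventually.of_forall fun g => by simp [hHz])
    simp only [hHz, hLm]
    rw [integral_add hZ (integrable_const _), L_eq_integral hf hv M w hw]
    simp only [integral_const, probReal_univ, one_smul]
    congr 1
    rw [← (hfirst M).map_eq, integral_map (hfirst M).measurable.aemeasurable]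
    · rfl
    · exact (measurable_logZ (μ := μ) hf hv hw.meas).aestronglyMeasurable
  show ∫ ω, |H ω - ∫ ω', H ω' ∂(poiLaw lam).prod π| ∂(poiLaw lam).prod π ≤ _
  set m := ∫ ω, H ω ∂(poiLaw lam).prod π with hm
  have hmL : m = ∫ M, Lm M ∂poiLaw lam := by
    rw [hm, integral_prod _ hHi]
    exact integral_congr_ae (Eventually.of_forall hmean)
  set s := Real.sqrt lam + 1 with hs
  have hs0 : 0 < s := by positivity
  have hls : lam ≤ s ^ 2 := by
    rw [hs]; nlinarith [Real.sq_sqrt hl, Real.sqrt_nonneg lam]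
  set t := 2 * (B + 1) * s with ht
  have ht0 : 0 < t := by rw [ht]; positivity
  -- fluctuation at a fixed count
  have hfix : ∀ M : ℕ, ∫ g, |H (M, g) - Lm M| ∂π ≤ 4 * B ^ 2 / (2 * t) * M + t / 2 := fun M => by
    have hsq : Integrable (fun g => (H (M, g) - Lm M) ^ 2) π :=
      Integrable.of_bound (((hHm.comp measurable_prodMk_left).sub_const _).pow_const 2).aestronglyMeasurable
        ((κ + M * B + |Lm M|) ^ 2) (Eventually.of_forall fun g => by
          rw [Real.norm_eq_abs, abs_pow]
          exact pow_le_pow_left₀ (abs_nonneg _)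
            ((abs_sub _ _).trans (by linarith [hHb (M, g)])) 2)
    refine (integral_mono ((hsec M).sub (integrable_const _)).abs
      ((hsq.div_const (2 * t)).add (integrable_const (t / 2)))
      fun g => abs_le_amgm _ ht0).trans ?_
    simp only [Pi.add_apply]
    rw [integral_add (hsq.div_const _) (integrable_const _), integral_div, integral_const, probReal_univ,
      one_smul, mul_comm (4 * B ^ 2 / (2 * t)), ← mul_div_assoc, mul_comm (M : ℝ)]
    refine add_le_add (div_le_div_of_nonneg_right ?_ (by positivity)) le_rfl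
    have hv2 := variance_logZ (μ := μ) hf hv M w hw
    rw [← (hfirst M).map_eq, integral_map (hfirst M).measurable.aemeasurable
      (((measurable_logZ (μ := μ) hf hv hw.meas).sub_const _).pow_const 2).aestronglyMeasurable] at hv2
    simpa only [hHz, hLm, add_sub_add_right_eq_sub] using hv2
  -- fluctuation of the count
  set c0 := Lm ⌊lam⌋₊
  have hcount : ∀ M : ℕ, |Lm M - c0| ≤ (1 + B) * (|(M : ℝ) - lam| + 1) := fun M => by
    simp only [c0, hLm, add_sub_add_right_eq_sub]
    refine (L_lipschitz (μ := μ) hf hv hw M ⌊lam⌋₊).trans (mul_le_mul_of_nonneg_left ?_ (by linarith))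
    have h1 := Nat.floor_le hl
    have h2 := Nat.lt_floor_add_one lam
    refine (abs_sub_le (M : ℝ) lam ⌊lam⌋₊).trans (add_le_add le_rfl ?_)
    rw [abs_of_nonneg (by linarith)]
    linarith
  have hM1 : Integrable (fun M : ℕ => |(M : ℝ) - lam|) (poiLaw lam) :=
    (Integrable.sub (by simpa using integrable_poiLaw_pow lam 1) (integrable_const lam)).abs
  have hcnt : ∫ M : ℕ, |(M : ℝ) - lam| ∂poiLaw lam ≤ s := by
    have h2 : Integrable (fun M : ℕ => ((M : ℝ) - lam) ^ 2) (poiLaw lam) :=
      integrable_poisson_of_le (C := (1 + lam) ^ 2) (j := 2) fun n => by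
        rw [abs_pow, ← mul_pow]
        refine pow_le_pow_left₀ (abs_nonneg _) (abs_le.2 ⟨?_, ?_⟩) 2 <;>
          nlinarith [mul_nonneg hl (Nat.cast_nonneg (α := ℝ) n)]
    refine (integral_mono hM1 ((h2.div_const (2 * s)).add (integrable_const (s / 2)))
      fun M => abs_le_amgm _ hs0).trans ?_
    simp only [Pi.add_apply]
    rw [integral_add (h2.div_const _) (integrable_const _), integral_div, integral_const, probReal_univ,
      one_smul, poiLaw_variance hl]
    have : lam / (2 * s) ≤ s / 2 := by
      rw [div_le_div_iff₀ (by positivity) (by norm_num)]; nlinarith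
    linarith
  have hLmi : Integrable Lm (poiLaw lam) := hHi.integral_prod_left.congr (Eventually.of_forall hmean)
  have hLc : Integrable (fun M => |Lm M - c0|) (poiLaw lam) := (hLmi.sub (integrable_const _)).abs
  have hEc : ∫ M, |Lm M - c0| ∂poiLaw lam ≤ (1 + B) * (s + 1) := by
    refine (integral_mono hLc ((hM1.add (integrable_const 1)).const_mul _) hcount).trans ?_
    simp only [Pi.add_apply]
    rw [integral_const_mul, integral_add hM1 (integrable_const _)]
    simp only [integral_const, probReal_univ, one_smul]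
    exact mul_le_mul_of_nonneg_left (by linarith) (by linarith)
  have hcm : |c0 - m| ≤ (1 + B) * (s + 1) := by
    refine le_trans ?_ hEc
    rw [hmL, abs_sub_comm, show (∫ M, Lm M ∂poiLaw lam) - c0 = ∫ M, (Lm M - c0) ∂poiLaw lam by
      rw [integral_sub hLmi (integrable_const _)]; simp]
    exact abs_integral_le_integral_abs
  clear_value Lm c0 t s
  have hid : Integrable (fun M : ℕ => (M : ℝ)) (poiLaw lam) := by
    simpa using integrable_poiLaw_pow lam 1
  have i1 : Integrable (fun M : ℕ => 4 * B ^ 2 / (2 * t) * (M : ℝ) + t / 2) (poiLaw lam) :=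
    (hid.const_mul (4 * B ^ 2 / (2 * t))).add (integrable_const (t / 2))
  have i2 : Integrable (fun M : ℕ => 4 * B ^ 2 / (2 * t) * (M : ℝ) + t / 2 + |Lm M - c0|) (poiLaw lam) :=
    i1.add hLc
  have hbound : Integrable (fun M : ℕ => 4 * B ^ 2 / (2 * t) * (M : ℝ) + t / 2 + |Lm M - c0| + |c0 - m|)
      (poiLaw lam) := i2.add (integrable_const _)
  rw [integral_prod (fun ω => |H ω - m|) ((hHi.sub (integrable_const m)).abs)]
  refine (integral_mono ((hHi.sub (integrable_const m)).abs.integral_prod_left) hbound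
    fun M => ?_).trans ?_
  · have j1 : Integrable (fun g => |H (M, g) - Lm M|) π := ((hsec M).sub (integrable_const _)).abs
    calc ∫ g, |H (M, g) - m| ∂π ≤ ∫ g, (|H (M, g) - Lm M| + (|Lm M - c0| + |c0 - m|)) ∂π :=
          integral_mono ((hsec M).sub (integrable_const _)).abs (j1.add (integrable_const _)) fun g =>
            (abs_sub_le _ (Lm M) _).trans (add_le_add le_rfl (abs_sub_le _ c0 _))
      _ = (∫ g, |H (M, g) - Lm M| ∂π) + (|Lm M - c0| + |c0 - m|) := by
          rw [integral_add j1 (integrable_const _)]; simp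
      _ ≤ _ := by linarith [hfix M]
  · rw [integral_add i2 (integrable_const _), integral_add i1 hLc,
      integral_add (hid.const_mul (4 * B ^ 2 / (2 * t))) (integrable_const _), integral_const_mul,
      poiLaw_id hl]
    simp only [integral_const, probReal_univ, one_smul]
    have h3 : 4 * B ^ 2 / (2 * t) * lam ≤ (B + 1) * s := by
      rw [div_mul_eq_mul_div, div_le_iff₀ (by positivity), ht]
      nlinarith [mul_le_mul (by nlinarith : B ^ 2 ≤ (B + 1) ^ 2) hls hl (sq_nonneg (B + 1))]
    rw [show t / 2 = (B + 1) * s by rw [ht]; ring]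
    have hs1 : 1 ≤ s := by rw [hs]; linarith [Real.sqrt_nonneg lam]
    have : (B + 1) * 1 ≤ (B + 1) * s := mul_le_mul_of_nonneg_left hs1 (by linarith)
    linarith

section Gauss

variable {E₁ E₂ : Type} [NormedAddCommGroup E₁] [InnerProductSpace ℝ E₁] [FiniteDimensional ℝ E₁]
  [MeasurableSpace E₁] [BorelSpace E₁] [NormedAddCommGroup E₂] [InnerProductSpace ℝ E₂]
  [FiniteDimensional ℝ E₂] [MeasurableSpace E₂] [BorelSpace E₂]

/-- Patterns and two Gaussian fields in one log-sum. -/
noncomputable def patGauss (f : ℝ → ℝ) (v : X → Sp N) (κ : X → ℝ) (Φ : X → E₁) (W : X → E₂)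
    (w : (ℕ × (ℕ → Sp N)) × (E₁ × E₂)) : ℝ :=
  lsum fun x => patExp f w.1 (v x) + (κ x + ⟪w.2.1, Φ x⟫ + ⟪w.2.2, W x⟫)

omit [FiniteDimensional ℝ E₁] in
lemma measurable_patGauss (hf : Pot f B) (v : X → Sp N) (κ : X → ℝ) (Φ : X → E₁) (W : X → E₂) :
    Measurable (patGauss f v κ Φ W) :=
  continuous_lsum.measurable.comp (measurable_pi_lambda _ fun x =>
    ((measurable_patExp hf (v x)).comp measurable_fst).add
      ((by fun_prop : Continuous fun w : E₁ × E₂ => κ x + ⟪w.1, Φ x⟫ + ⟪w.2, W x⟫).measurable.comp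
        measurable_snd))

lemma integrable_patGauss (hf : Pot f B) (v : X → Sp N) (κ : X → ℝ) (Φ : X → E₁) (W : X → E₂) :
    Integrable (patGauss f v κ Φ W)
      (((poiLaw lam).prod (patLaw N)).prod ((stdGaussian E₁).prod (stdGaussian E₂))) := by
  have hM : Integrable (fun ω : ℕ × (ℕ → Sp N) => (ω.1 : ℝ) * B)
      ((poiLaw lam).prod (patLaw N)) := by
    have h : Integrable (fun M : ℕ => (M : ℝ)) (poiLaw lam) := by
      simpa using integrable_poiLaw_pow lam 1
    exact (h.mul_const B).comp_fst _
  have h1 : ∀ x, Integrable (fun w : E₁ × E₂ => |κ x| + ‖w.1‖ * ‖Φ x‖ + ‖w.2‖ * ‖W x‖)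
      ((stdGaussian E₁).prod (stdGaussian E₂)) := fun x =>
    ((integrable_const _).add (((IsGaussian.integrable_id (μ := stdGaussian E₁)).norm.mul_const
      _).comp_fst _)).add (((IsGaussian.integrable_id (μ := stdGaussian E₂)).norm.mul_const _).comp_snd _)
  refine ((integrable_const (Real.log (Fintype.card X))).add (integrable_finsetSum Finset.univ
    fun x _ => (hM.comp_fst _).add ((h1 x).comp_snd _))).mono'
      (measurable_patGauss hf v κ Φ W).aestronglyMeasurable (Eventually.of_forall fun w => ?_)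
  rw [Real.norm_eq_abs]
  refine (abs_lsum_le _).trans (add_le_add le_rfl (Finset.sum_le_sum fun x _ => ?_))
  exact (abs_add_le _ _).trans (add_le_add (abs_patExp_le hf _ _)
    ((abs_add_le _ _).trans (add_le_add ((abs_add_le _ _).trans
      (add_le_add le_rfl (abs_real_inner_le_norm _ _))) (abs_real_inner_le_norm _ _))))

/-- Their deviation. -/
lemma mad_patGauss (hf : Pot f B) (hl : 0 ≤ lam) (v : X → Sp N) (κ : X → ℝ) (Φ : X → E₁)
    (W : X → E₂) {lg lw : ℝ} (hΦ : ∀ x, ‖Φ x‖ ≤ lg) (hW : ∀ x, ‖W x‖ ≤ lw) :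
    ∫ w, |patGauss f v κ Φ W w - ∫ w', patGauss f v κ Φ W w'
        ∂((poiLaw lam).prod (patLaw N)).prod ((stdGaussian E₁).prod (stdGaussian E₂))|
      ∂((poiLaw lam).prod (patLaw N)).prod ((stdGaussian E₁).prod (stdGaussian E₂)) ≤
      3 * lw + 3 * lg + 6 * (B + 1) * (Real.sqrt lam + 1) := by
  set μ := (poiLaw lam).prod (patLaw N)
  set γ₁ := stdGaussian E₁
  set γ₂ := stdGaussian E₂
  set G := patGauss f v κ Φ W
  have hG : Integrable G (μ.prod (γ₁.prod γ₂)) := integrable_patGauss hf v κ Φ W
  refine (mad_prod hG _).trans (add_le_add ?_ ?_)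
  · -- the Gaussian fields
    refine (integral_mono_ae (hG.sub (hG.integral_prod_left.comp_fst _)).abs.integral_prod_left
      (integrable_const (3 * lw + 3 * lg)) ?_).trans_eq (by simp)
    filter_upwards [hG.prod_right_ae] with ω hω
    show ∫ w, |G (ω, w) - ∫ w', G (ω, w') ∂γ₁.prod γ₂| ∂γ₁.prod γ₂ ≤ _
    refine (mad_prod hω _).trans (add_le_add ?_ ?_)
    · refine (integral_mono_ae (hω.sub (hω.integral_prod_left.comp_fst _)).abs.integral_prod_left
        (integrable_const (3 * lw)) (Eventually.of_forall fun g => ?_)).trans_eq (by simp)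
      show ∫ z, |G (ω, g, z) - ∫ z', G (ω, g, z') ∂γ₂| ∂γ₂ ≤ _
      have h := (gauss_lse_mad (fun x => patExp f ω (v x) + (κ x + ⟪g, Φ x⟫)) W hW).2
      simpa only [G, patGauss, lsum, add_assoc] using h
    · rw [integral_prod _ hω]
      refine (mad_mean (μ := γ₁) (ν := γ₂) hω).trans ?_
      refine (integral_mono_ae ?_ (integrable_const (3 * lg))
        (Eventually.of_forall fun z => ?_)).trans_eq (by simp)
      · exact (hω.sub (hω.integral_prod_right.comp_snd γ₁)).abs.integral_prod_right
      have h := (gauss_lse_mad (fun x => patExp f ω (v x) + (κ x + ⟪z, W x⟫)) Φ hΦ).2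
      simpa only [G, patGauss, lsum, ← add_assoc, add_right_comm] using h
  · -- the patterns
    rw [integral_prod _ hG]
    refine (mad_mean (μ := μ) (ν := γ₁.prod γ₂) hG).trans ?_
    refine (integral_mono_ae ?_ (integrable_const (6 * (B + 1) * (Real.sqrt lam + 1)))
      (Eventually.of_forall fun w => ?_)).trans_eq (by simp)
    · exact (hG.sub (hG.integral_prod_right.comp_snd μ)).abs.integral_prod_right
    exact (poi_lse_mad hf hl v fun x => κ x + ⟪w.1, Φ x⟫ + ⟪w.2, W x⟫).2

end Gauss

end Vale.Agent.P157F.Up
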