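import Vale.Agent.P157F.Up.Model
import Vale.Agent.P166F.Up.Dev.Root

/-!
P157: the tree with the points of a configuration summed out, uniformly in their exponents.
-/

namespace Vale.Agent.P157F.Up

open MeasureTheory ProbabilityTheory Filter
open Vale.Agent.P157
open Vale.Agent.P166F (treeLog nestVal rootPt markLaw leafPt wgt wgt_pos good_levs devConst
  integral_treeLog treeLog_dev_aux lip_nestVal measurable_nestVal measurable_rootPt
  integrable_norm_rootPt ae_node_pos' lsum nestVal_eq)
open Vale.Agent.P166F.Dev (abs_lsum_sub_le continuous_lsum)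
open Vale.Agent.P166N (Node Leaf nonempty_leaf)
open scoped Topology RealInnerProductSpace

variable {N n k : ℕ} (C : Conf N)

lemma lip_confG (b : C.A → ℝ) : RSB.Lip (Real.sqrt N) (confG C b) := by
  refine ⟨(continuous_lsum.comp (by fun_prop)).measurable, Real.sqrt_nonneg _, fun x y => ?_⟩
  refine abs_lsum_sub_le fun a => ?_
  rw [add_sub_add_left_eq_sub, ← mul_sub, inner_add_left, add_sub_cancel_left, abs_mul,
    abs_of_nonneg (Real.sqrt_nonneg _)]
  refine mul_le_mul_of_nonneg_left ((abs_real_inner_le_norm _ _).trans_eq ?_) (Real.sqrt_nonneg _)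
  rw [C.unit, mul_one]

lemma abs_confG_sub_le (b b' : C.A → ℝ) (h : EuclideanSpace ℝ (Fin N)) :
    |confG C b h - confG C b' h| ≤ ‖b - b'‖ := by
  refine abs_lsum_sub_le fun a => ?_
  rw [add_sub_add_right_eq_sub, ← Real.norm_eq_abs]
  exact norm_le_pi_norm (b - b') a

variable {C} {m : ℕ → ℝ} {R : ℕ → Fin N → ℝ}

lemma abs_treeLog_confG_sub_le (hn : 1 ≤ n) {w : (Node n k → ℝ) ×
      (Option (Node n k) → EuclideanSpace ℝ (Fin N))} (hw : ∀ u, 0 < w.1 u) (b b' : C.A → ℝ) :
    |treeLog (n := n) k m R (confG C b) w - treeLog (n := n) k m R (confG C b') w| ≤ ‖b - b'‖ := by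
  have := nonempty_leaf hn k
  have hp := wgt_pos (m := m) hn hw
  have hW : 0 < ∑ l, wgt n k m w.1 l := Finset.sum_pos (fun l _ => hp l) Finset.univ_nonempty
  have e : ∀ c, treeLog (n := n) k m R (confG C c) w = lsum (fun l =>
      Real.log (wgt n k m w.1 l) + confG C c (leafPt k R l w.2)) -
        Real.log (∑ l, wgt n k m w.1 l) := fun c => by
    rw [treeLog, Real.log_div (Finset.sum_pos (fun l _ => mul_pos (hp l) (Real.exp_pos _))
      Finset.univ_nonempty).ne' hW.ne', lsum]
    simp only [Real.exp_add, Real.exp_log (hp _)]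
  rw [e, e, sub_sub_sub_cancel_right]
  refine abs_lsum_sub_le fun l => ?_
  rw [add_sub_add_left_eq_sub]
  exact abs_confG_sub_le C b b' _

section Below

variable (hm : ∀ j, 1 ≤ j → j ≤ k → 0 < m j)
include hm

lemma abs_nestVal_confG_sub_le (b b' : C.A → ℝ) (x : EuclideanSpace ℝ (Fin N)) :
    |nestVal k m R (confG C b) x - nestVal k m R (confG C b') x| ≤ ‖b - b'‖ := by
  have hg := good_levs (ι := Fin N) R hm
  have key : ∀ c c', nestVal k m R (confG C c) x ≤ nestVal k m R (confG C c') x + ‖c - c'‖ :=
    fun c c' => by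
    have hL : RSB.Lip (Real.sqrt N) fun h => confG C c' h + ‖c - c'‖ :=
      ⟨(lip_confG C c').meas.add_const _, Real.sqrt_nonneg _, fun u v => by
        simpa using (lip_confG C c').lip u v⟩
    rw [nestVal_eq, nestVal_eq, ← RSB.casc_add_const (lip_confG C c') _ hg]
    exact RSB.casc_mono (lip_confG C c) hL
      (fun h => by linarith [(abs_le.1 (abs_confG_sub_le C c c' h)).2]) hg x
  have h1 := key b b'
  have h2 := key b' b
  rw [norm_sub_rev b' b] at h2
  rw [abs_le]
  constructor <;> linarith

lemma continuous_confRoot :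
    Continuous fun p : (C.A → ℝ) × EuclideanSpace ℝ (Fin N) =>
      nestVal k m R (confG C p.1) (rootPt R p.2) := by
  have hroot : Continuous (rootPt R) := by unfold rootPt; fun_prop
  have hx : ∀ b, LipschitzWith (Real.toNNReal (Real.sqrt N)) (nestVal k m R (confG C b)) := fun b => by
    refine LipschitzWith.of_dist_le_mul fun x y => ?_
    have hg := good_levs (ι := Fin N) R hm
    have h := ((lip_confG C b).casc hg).lip y (x - y)
    rw [add_sub_cancel, ← nestVal_eq, ← nestVal_eq] at h
    rwa [Real.dist_eq, dist_eq_norm, Real.coe_toNNReal _ (Real.sqrt_nonneg _)]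
  exact continuous_prod_of_continuous_lipschitzWith
    (fun q : (C.A → ℝ) × EuclideanSpace ℝ (Fin N) => nestVal k m R (confG C q.1) (rootPt R q.2))
    1 (fun b => (hx b).continuous.comp hroot) (fun h => LipschitzWith.of_dist_le_mul fun b b' => by
      rw [Real.dist_eq, dist_eq_norm, NNReal.coe_one, one_mul]
      exact abs_nestVal_confG_sub_le hm b b' _)

end Below

variable (hm : ∀ j, 1 ≤ j → j ≤ k → 0 < m j ∧ m j < 1) (hs : ∀ j, 1 ≤ j → j < k → m j < m (j + 1))
include hm hs

/-- The deviation from the value at the root for exponents `b`. -/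
noncomputable def confRootDev (C : Conf N) (n k : ℕ) (m : ℕ → ℝ) (R : ℕ → Fin N → ℝ)
    (b : C.A → ℝ) : ℝ :=
  ∫ w, |treeLog (n := n) k m R (confG C b) w - nestVal k m R (confG C b) (rootPt R (w.2 none))|
    ∂markLaw n k (Fin N)

lemma integrable_confRootDiff (hn : 1 ≤ n) (b : C.A → ℝ) :
    Integrable (fun w : (Node n k → ℝ) × (Option (Node n k) → EuclideanSpace ℝ (Fin N)) =>
      treeLog (n := n) k m R (confG C b) w - nestVal k m R (confG C b) (rootPt R (w.2 none)))
      (markLaw n k (Fin N)) := by
  refine (integral_treeLog hm hs (R := R) (lip_confG C b) hn).1.sub ?_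
  have hmp : ∀ j, 1 ≤ j → j ≤ k → 0 < m j := fun j h1 h2 => (hm j h1 h2).1
  have h : Integrable (fun z : EuclideanSpace ℝ (Fin N) => nestVal k m R (confG C b) (rootPt R z))
      (stdGaussian (EuclideanSpace ℝ (Fin N))) := by
    refine ((integrable_const |nestVal k m R (confG C b) 0|).add
      ((integrable_norm_rootPt R).const_mul (Real.sqrt N))).mono'
      ((measurable_nestVal hmp (lip_confG C b)).comp
        (measurable_rootPt R)).aestronglyMeasurable (Eventually.of_forall fun z => ?_)
    have h1 := lip_nestVal (R := R) hm (lip_confG C b) 0 (rootPt R z)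
    rw [zero_add] at h1
    simp only [Real.norm_eq_abs, Pi.add_apply]
    linarith [abs_sub_abs_le_abs_sub (nestVal k m R (confG C b) (rootPt R z))
      (nestVal k m R (confG C b) 0)]
  exact ((measurePreserving_eval (fun _ : Option (Node n k) => stdGaussian (EuclideanSpace ℝ (Fin N)))
    none).integrable_comp_of_integrable h).comp_snd _

lemma abs_confRootDev_sub_le (hn : 1 ≤ n) (b b' : C.A → ℝ) :
    |confRootDev C n k m R b - confRootDev C n k m R b'| ≤ 2 * ‖b - b'‖ := by
  have i := fun c => (integrable_confRootDiff hm hs (R := R) (C := C) hn c).abs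
  rw [confRootDev, confRootDev, ← integral_sub (i b) (i b')]
  refine abs_integral_le_integral_abs.trans ?_
  refine (integral_mono_ae ((i b).sub (i b')).abs (integrable_const (2 * ‖b - b'‖)) ?_).trans_eq
    (by unfold markLaw; simp)
  filter_upwards [Measure.quasiMeasurePreserving_fst.ae (ae_node_pos' (n := n) (k := k))] with w hw
  refine (abs_abs_sub_abs_le_abs_sub _ _).trans ?_
  have h1 := abs_le.1 (abs_treeLog_confG_sub_le (m := m) (R := R) hn hw b b')
  have h2 := abs_le.1 (abs_nestVal_confG_sub_le (fun j h1 h2 => (hm j h1 h2).1) b b'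
    (rootPt R (w.2 none)) (R := R))
  rw [abs_le]
  constructor <;> linarith

/-- Averaged over the exponents the deviation stays bounded. -/
theorem eventually_mean_confRootDev {Q : Type} [MeasurableSpace Q] {μ : Measure Q}
    [IsProbabilityMeasure μ] {b : Q → C.A → ℝ} (hb : Measurable b)
    (hi : Integrable (fun q => ‖b q‖) μ) :
    ∀ᶠ n in atTop, Integrable (fun q => confRootDev C n k m R (b q)) μ ∧
      ∫ q, confRootDev C n k m R (b q) ∂μ ≤ devConst k m + 2 := by
  set D := devConst k m + 1
  have hcont : ∀ n, 1 ≤ n → Continuous (confRootDev C n k m R) := fun n hn =>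
    LipschitzWith.continuous (K := 2) (LipschitzWith.of_dist_le_mul fun c c' => by
      rw [Real.dist_eq, dist_eq_norm]
      exact_mod_cast abs_confRootDev_sub_le hm hs hn c c')
  set g := fun (n : ℕ) q => max (confRootDev C n k m R (b q) - D) 0
  have hlim : Tendsto (fun n => ∫ q, g n q ∂μ) atTop (𝓝 (∫ _q, (0 : ℝ) ∂μ)) := by
    refine tendsto_integral_filter_of_dominated_convergence (fun q => 2 * ‖b q‖)
      ((eventually_ge_atTop 1).mono fun n hn => ((((hcont n hn).measurable.comp hb).sub_const D).max
        measurable_const).aestronglyMeasurable) ?_ (hi.const_mul 2) (Eventually.of_forall fun q => ?_)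
    · filter_upwards [eventually_ge_atTop 1,
        treeLog_dev_aux hm hs (R := R) (lip_confG C 0)] with n hn h0
      refine Eventually.of_forall fun q => ?_
      rw [Real.norm_of_nonneg (le_max_right _ _)]
      refine max_le ?_ (by positivity)
      have h1 := (abs_le.1 (abs_confRootDev_sub_le hm hs (R := R) hn (b q) 0)).2
      rw [sub_zero] at h1
      have h0' : confRootDev C n k m R 0 ≤ D := h0
      linarith
    · refine tendsto_const_nhds.congr' ((treeLog_dev_aux hm hs (R := R) (lip_confG C (b q))).mono
        fun n hn => ?_)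
      exact (max_eq_right (sub_nonpos.2 hn)).symm
  rw [integral_zero] at hlim
  filter_upwards [eventually_ge_atTop 1, hlim.eventually_le_const one_pos] with n hn h1
  have hint : Integrable (fun q => confRootDev C n k m R (b q)) μ := by
    refine ((integrable_const |confRootDev C n k m R 0|).add (hi.const_mul 2)).mono'
      ((hcont n hn).measurable.comp hb).aestronglyMeasurable (Eventually.of_forall fun q => ?_)
    have h1 := abs_confRootDev_sub_le hm hs (R := R) hn (b q) 0
    rw [sub_zero] at h1
    simp only [Real.norm_eq_abs, Pi.add_apply]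
    linarith [abs_sub_abs_le_abs_sub (confRootDev C n k m R (b q)) (confRootDev C n k m R 0)]
  refine ⟨hint, ?_⟩
  have hgi : Integrable (g n) μ := (hint.sub (integrable_const D)).pos_part
  calc ∫ q, confRootDev C n k m R (b q) ∂μ ≤ ∫ q, g n q + D ∂μ :=
        integral_mono hint (hgi.add (integrable_const D)) fun q => by
          linarith [le_max_left (confRootDev C n k m R (b q) - D) 0]
    _ ≤ _ := by
        rw [integral_add hgi (integrable_const D)]
        simp only [integral_const, probReal_univ, one_smul]
        linarith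

end Vale.Agent.P157F.Up
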